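import Vale.Agent.P225.Main.Final
import Vale.Agent.P225.Gen.Main
import Vale.Agent.P225.Analysis.AnalysisMain
import Vale.Agent.P225.Analysis.Glue
import Vale.Agent.P225.Analysis.Limit
import Vale.Agent.P225.Count.Cert

/-!
# P225: Yau's dimension comparison fails
-/

namespace Vale.Agent.Results.P225.YauCounterexample

open Vale.Agent.P225
open scoped ContDiff

theorem result :
    ∃ k : ℕ, 1 ≤ k ∧
      ∃ g : EuclideanSpace ℝ (Fin 30) → Matrix (Fin 30) (Fin 30) ℝ,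
        (∀ i j, ContDiff ℝ ∞ fun x => g x i j) ∧ (∀ x, (g x).PosDef) ∧
        (∀ a : ℕ → EuclideanSpace ℝ (Fin 30),
          (∀ ε > 0, ∃ N, ∀ i ≥ N, ∀ j ≥ N, dist' g (a i) (a j) < ε) →
            ∃ x, ∀ ε > 0, ∃ N, ∀ i ≥ N, dist' g (a i) x < ε) ∧
        (∀ (x : EuclideanSpace ℝ (Fin 30)) (v : Fin 30 → ℝ),
          0 ≤ ∑ i, ∑ j, v i * v j * ricci g x i j) ∧
        ∃ U : Fin ((30 + k - 1).choose k + (30 + k - 2).choose (k - 1) + 1) →
            EuclideanSpace ℝ (Fin 30) → ℝ,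
          LinearIndependent ℝ U ∧ ∀ i, ContDiff ℝ ∞ (U i) ∧ (∀ x, laplace g (U i) x = 0) ∧
            ∃ C : ℝ, ∀ x, |U i x| ≤ C * (1 + dist' g 0 x) ^ k :=
  final_of_stmts gen_ok (analysis_of periodLimit_ok glue_ok) Count.count_ok

end Vale.Agent.Results.P225.YauCounterexample
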